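import Vale.Agent.P260.H417.Seq
import Vale.Agent.P260.H493.Basic

/-!
# P260 climb, module ASM: low and high contractions give a full one
-/

namespace Vale.Agent.P260.H417

open Vale.Agent.P260.H493 Filter

variable {k Γ : Type} [Field k] [Group Γ] {ψ : Γ →* Multiplicative ℤ} {ι κ ν : Type}

theorem bd_const [Finite ι] [Finite κ] (T : Hm k Γ ι κ) : Bd ψ (fun _ => T) := by
  obtain ⟨C, hC⟩ := exists_shift (ψ := ψ) T
  exact ⟨C, fun _ => hC⟩

section

variable {m : ℕ} (P : PDG k Γ m)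

theorem dd (i : ℕ) (hi : i < m) : P.d i ∘ₗ P.d (i + 1) = 0 :=
  LinearMap.ext fun w => (P.ex i hi _).2 ⟨w, rfl⟩

theorem dpi : P.d m ∘ₗ P.π = P.d m := LinearMap.ext P.d_pi

theorem pipi : P.π ∘ₗ P.π = P.π := LinearMap.ext P.pi_pi

/-- the idempotent in degree `i + 1` -/
noncomputable def piS (i : ℕ) : Hm k Γ (Fin (P.r (i + 1))) (Fin (P.r (i + 1))) :=
  if h : i = m then (by rw [h]; exact P.π) else LinearMap.id

theorem piS_self : piS P m = P.π := by
  unfold piS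
  rw [dif_pos rfl]
  rfl

theorem piS_ne {i : ℕ} (h : i ≠ m) : piS P i = LinearMap.id := by
  unfold piS
  rw [dif_neg h]

theorem d_piS (i : ℕ) : P.d i ∘ₗ piS P i = P.d i := by
  rcases eq_or_ne i m with rfl | h
  · rw [piS_self, dpi]
  · rw [piS_ne P h, LinearMap.comp_id]

variable (h : P.Hom1)

/-- the defect in degree `i + 1`, including the top degree -/
noncomputable def Rr (i : ℕ) : Hm k Γ (Fin (P.r (i + 1))) (Fin (P.r (i + 1))) :=
  piS P i - piS P i ∘ₗ h i ∘ₗ P.d i - (if i < m then P.d (i + 1) ∘ₗ h (i + 1) else 0)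

theorem Rr_lt {i : ℕ} (hi : i < m) : Rr P h i = P.defect h (i + 1) := by
  unfold Rr
  rw [if_pos hi, piS_ne P (ne_of_lt hi), LinearMap.id_comp]
  rfl

theorem Rr_top : Rr P h m = P.topDefect h := by
  unfold Rr PDG.topDefect
  rw [if_neg (lt_irrefl m), piS_self, sub_zero]

theorem Rr_pi : Rr P h m ∘ₗ P.π = Rr P h m := by
  rw [Rr_top]
  unfold PDG.topDefect
  rw [LinearMap.sub_comp, pipi, LinearMap.comp_assoc, LinearMap.comp_assoc, dpi]

theorem comm_low (i : ℕ) (hi : i < m) :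
    P.defect h i ∘ₗ P.d i = P.d i ∘ₗ P.defect h (i + 1) := by
  cases i with
  | zero =>
    have h1 := dd P 0 hi
    change (LinearMap.id - P.d 0 ∘ₗ h 0) ∘ₗ P.d 0 =
      P.d 0 ∘ₗ (LinearMap.id - h 0 ∘ₗ P.d 0 - P.d 1 ∘ₗ h 1)
    rw [LinearMap.sub_comp, LinearMap.comp_sub, LinearMap.comp_sub, LinearMap.id_comp,
      LinearMap.comp_id, ← LinearMap.comp_assoc (h 1), h1, LinearMap.zero_comp, sub_zero,
      LinearMap.comp_assoc]
  | succ i =>
    have h1 := dd P (i + 1) hi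
    have h0 := dd P i (by omega)
    change (LinearMap.id - h i ∘ₗ P.d i - P.d (i + 1) ∘ₗ h (i + 1)) ∘ₗ P.d (i + 1) =
      P.d (i + 1) ∘ₗ (LinearMap.id - h (i + 1) ∘ₗ P.d (i + 1) - P.d (i + 2) ∘ₗ h (i + 2))
    rw [LinearMap.sub_comp, LinearMap.sub_comp, LinearMap.comp_sub, LinearMap.comp_sub,
      LinearMap.id_comp, LinearMap.comp_id, LinearMap.comp_assoc, h0, LinearMap.comp_zero,
      sub_zero, ← LinearMap.comp_assoc (h (i + 2)), h1, LinearMap.zero_comp, sub_zero,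
      LinearMap.comp_assoc]

theorem comm_high (i : ℕ) (hi : i < m) :
    Rr P h i ∘ₗ P.d (i + 1) = P.d (i + 1) ∘ₗ Rr P h (i + 1) := by
  have h0 := dd P i hi
  have hL : Rr P h i ∘ₗ P.d (i + 1) =
      P.d (i + 1) - P.d (i + 1) ∘ₗ h (i + 1) ∘ₗ P.d (i + 1) := by
    rw [Rr_lt P h hi]
    change (LinearMap.id - h i ∘ₗ P.d i - P.d (i + 1) ∘ₗ h (i + 1)) ∘ₗ P.d (i + 1) = _
    rw [LinearMap.sub_comp, LinearMap.sub_comp, LinearMap.id_comp, LinearMap.comp_assoc, h0,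
      LinearMap.comp_zero, sub_zero, LinearMap.comp_assoc]
  have hR : P.d (i + 1) ∘ₗ (if i + 1 < m then P.d (i + 1 + 1) ∘ₗ h (i + 1 + 1) else 0) = 0 := by
    split_ifs with h1
    · rw [← LinearMap.comp_assoc, dd P (i + 1) h1, LinearMap.zero_comp]
    · rw [LinearMap.comp_zero]
  rw [hL]
  unfold Rr
  rw [LinearMap.comp_sub, LinearMap.comp_sub, hR, sub_zero, ← LinearMap.comp_assoc
    (h (i + 1) ∘ₗ P.d (i + 1)), d_piS]

/-- the low contraction -/
noncomputable def ss (n i : ℕ) : Hm k Γ (Fin (P.r i)) (Fin (P.r (i + 1))) :=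
  h i ∘ₗ gs (P.defect h i) n

/-- the high contraction -/
noncomputable def tt (n i : ℕ) : Hm k Γ (Fin (P.r i)) (Fin (P.r (i + 1))) :=
  gs (Rr P h i) n ∘ₗ piS P i ∘ₗ h i

theorem low0 (n : ℕ) : P.d 0 ∘ₗ ss P h n 0 = LinearMap.id - pw (P.defect h 0) n := by
  unfold ss
  rw [← mul_gs, ← LinearMap.comp_assoc]
  congr 1
  change _ = LinearMap.id - (LinearMap.id - P.d 0 ∘ₗ h 0)
  rw [sub_sub_cancel]

theorem ss_d (n i : ℕ) (hi : i < m) :
    ss P h n i ∘ₗ P.d i = h i ∘ₗ P.d i ∘ₗ gs (P.defect h (i + 1)) n := by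
  unfold ss
  rw [LinearMap.comp_assoc, gs_intertwine (comm_low P h i hi)]

theorem low1 (n i : ℕ) (hi : i < m) :
    P.d (i + 1) ∘ₗ ss P h n (i + 1) + ss P h n i ∘ₗ P.d i =
      LinearMap.id - pw (P.defect h (i + 1)) n := by
  rw [ss_d P h n i hi, ← mul_gs]
  have h1 : LinearMap.id - P.defect h (i + 1) = h i ∘ₗ P.d i + P.d (i + 1) ∘ₗ h (i + 1) := by
    change LinearMap.id - (LinearMap.id - h i ∘ₗ P.d i - P.d (i + 1) ∘ₗ h (i + 1)) = _
    abel
  rw [h1, LinearMap.add_comp, add_comm ((h i ∘ₗ P.d i) ∘ₗ gs (P.defect h (i + 1)) n)]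
  unfold ss
  rw [LinearMap.comp_assoc, LinearMap.comp_assoc]

theorem dsd (n i : ℕ) (hi : i < m) :
    P.d i ∘ₗ ss P h n i ∘ₗ P.d i = P.d i - pw (P.defect h i) n ∘ₗ P.d i := by
  cases i with
  | zero => rw [← LinearMap.comp_assoc, low0, LinearMap.sub_comp, LinearMap.id_comp]
  | succ i =>
    have h1 := low1 P h n i (by omega)
    have h2 : P.d (i + 1) ∘ₗ ss P h n (i + 1) =
        LinearMap.id - pw (P.defect h (i + 1)) n - ss P h n i ∘ₗ P.d i := by
      rw [← h1]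
      abel
    rw [← LinearMap.comp_assoc, h2, LinearMap.sub_comp, LinearMap.sub_comp, LinearMap.id_comp,
      LinearMap.comp_assoc, dd P i (by omega), LinearMap.comp_zero, sub_zero]

theorem d_tt (n i : ℕ) (hi : i < m) :
    P.d (i + 1) ∘ₗ tt P h n (i + 1) = gs (Rr P h i) n ∘ₗ P.d (i + 1) ∘ₗ h (i + 1) := by
  unfold tt
  rw [← LinearMap.comp_assoc, ← gs_intertwine (comm_high P h i hi), LinearMap.comp_assoc,
    ← LinearMap.comp_assoc (h (i + 1)), d_piS]

theorem high1 (n i : ℕ) (hi : i < m) :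
    tt P h n i ∘ₗ P.d i + P.d (i + 1) ∘ₗ tt P h n (i + 1) = LinearMap.id - pw (Rr P h i) n := by
  rw [d_tt P h n i hi, ← gs_mul]
  have h1 : LinearMap.id - Rr P h i = h i ∘ₗ P.d i + P.d (i + 1) ∘ₗ h (i + 1) := by
    rw [Rr_lt P h hi]
    change LinearMap.id - (LinearMap.id - h i ∘ₗ P.d i - P.d (i + 1) ∘ₗ h (i + 1)) = _
    abel
  rw [h1, LinearMap.comp_add]
  unfold tt
  rw [piS_ne P (ne_of_lt hi), LinearMap.id_comp, LinearMap.comp_assoc]

theorem high_top (n : ℕ) :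
    tt P h n m ∘ₗ P.d m = P.π - pw (Rr P h m) n ∘ₗ P.π := by
  have h1 : P.π ∘ₗ h m ∘ₗ P.d m = (LinearMap.id - Rr P h m) ∘ₗ P.π := by
    rw [LinearMap.sub_comp, LinearMap.id_comp, Rr_pi, Rr_top]
    unfold PDG.topDefect
    abel
  unfold tt
  rw [piS_self, LinearMap.comp_assoc, LinearMap.comp_assoc, h1, ← LinearMap.comp_assoc, gs_mul,
    LinearMap.sub_comp, LinearMap.id_comp]

theorem dtd (n i : ℕ) (hi : i ≤ m) :
    P.d i ∘ₗ tt P h n i ∘ₗ P.d i = P.d i - P.d i ∘ₗ pw (Rr P h i) n ∘ₗ piS P i := by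
  rcases eq_or_ne i m with rfl | hne
  · rw [high_top, LinearMap.comp_sub, dpi, piS_self]
  · have hi' : i < m := lt_of_le_of_ne hi hne
    have h1 := high1 P h n i hi'
    have h2 : tt P h n i ∘ₗ P.d i =
        LinearMap.id - pw (Rr P h i) n - P.d (i + 1) ∘ₗ tt P h n (i + 1) := by
      rw [← h1]
      abel
    rw [h2, LinearMap.comp_sub, LinearMap.comp_sub, LinearMap.comp_id, ← LinearMap.comp_assoc
      (tt P h n (i + 1)), dd P i hi', LinearMap.zero_comp, sub_zero, piS_ne P hne,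
      LinearMap.comp_id]

end

section

variable {m : ℕ} (P : PDG k Γ m) (h h' : P.Hom1) (q : ℕ)

/-- `1 - s d` -/
noncomputable def XX (n i : ℕ) : Hm k Γ (Fin (P.r (i + 1))) (Fin (P.r (i + 1))) :=
  LinearMap.id - ss P h n i ∘ₗ P.d i

/-- `1 - d t` -/
noncomputable def YY (n i : ℕ) : Hm k Γ (Fin (P.r i)) (Fin (P.r i)) :=
  LinearMap.id - P.d i ∘ₗ tt P h' n i

/-- the approximate idempotent -/
noncomputable def ee (n : ℕ) : Hm k Γ (Fin (P.r (q + 1))) (Fin (P.r (q + 1))) :=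
  YY P h' n (q + 1) ∘ₗ XX P h n q

variable (hq : q + 1 ≤ m)

include hq

theorem XX_d (n : ℕ) : XX P h n q ∘ₗ P.d (q + 1) = P.d (q + 1) := by
  unfold XX
  rw [LinearMap.sub_comp, LinearMap.id_comp, LinearMap.comp_assoc, dd P q (by omega),
    LinearMap.comp_zero, sub_zero]

theorem d_YY (n : ℕ) : P.d q ∘ₗ YY P h' n (q + 1) = P.d q := by
  unfold YY
  rw [LinearMap.comp_sub, LinearMap.comp_id, ← LinearMap.comp_assoc, dd P q (by omega),
    LinearMap.zero_comp, sub_zero]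

theorem ee_d (n : ℕ) : ee P h h' q n ∘ₗ P.d (q + 1) =
    P.d (q + 1) ∘ₗ pw (Rr P h' (q + 1)) n ∘ₗ piS P (q + 1) := by
  unfold ee
  rw [LinearMap.comp_assoc, XX_d P h q hq]
  unfold YY
  rw [LinearMap.sub_comp, LinearMap.id_comp, LinearMap.comp_assoc, dtd P h' n (q + 1) hq,
    sub_sub_cancel]

theorem d_XX (n : ℕ) : P.d q ∘ₗ XX P h n q = pw (P.defect h q) n ∘ₗ P.d q := by
  unfold XX
  rw [LinearMap.comp_sub, LinearMap.comp_id, dsd P h n q (by omega), sub_sub_cancel]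

theorem d_ee (n : ℕ) : P.d q ∘ₗ ee P h h' q n = pw (P.defect h q) n ∘ₗ P.d q := by
  unfold ee
  rw [← LinearMap.comp_assoc, d_YY P h' q hq, d_XX P h q hq]

theorem XX_XX (n : ℕ) : XX P h n q ∘ₗ XX P h n q =
    XX P h n q - ss P h n q ∘ₗ pw (P.defect h q) n ∘ₗ P.d q := by
  conv_lhs => lhs; unfold XX
  rw [LinearMap.sub_comp, LinearMap.id_comp, LinearMap.comp_assoc, d_XX P h q hq]

theorem ee_ee (n : ℕ) : ee P h h' q n ∘ₗ ee P h h' q n - ee P h h' q n =
    -(YY P h' n (q + 1) ∘ₗ ss P h n q ∘ₗ pw (P.defect h q) n ∘ₗ P.d q) -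
      (ee P h h' q n ∘ₗ P.d (q + 1)) ∘ₗ tt P h' n (q + 1) ∘ₗ XX P h n q := by
  have h1 : ee P h h' q n ∘ₗ YY P h' n (q + 1) =
      ee P h h' q n - (ee P h h' q n ∘ₗ P.d (q + 1)) ∘ₗ tt P h' n (q + 1) := by
    conv_lhs => rhs; unfold YY
    rw [LinearMap.comp_sub, LinearMap.comp_id, LinearMap.comp_assoc]
  have h2 : ee P h h' q n ∘ₗ ee P h h' q n =
      (ee P h h' q n ∘ₗ YY P h' n (q + 1)) ∘ₗ XX P h n q := by
    conv_lhs => rhs; unfold ee
    rw [LinearMap.comp_assoc]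
  have h3 : ee P h h' q n ∘ₗ XX P h n q =
      ee P h h' q n - YY P h' n (q + 1) ∘ₗ ss P h n q ∘ₗ pw (P.defect h q) n ∘ₗ P.d q := by
    conv_lhs => lhs; unfold ee
    rw [LinearMap.comp_assoc, XX_XX P h q hq, LinearMap.comp_sub]
    rfl
  rw [h2, h1, LinearMap.sub_comp, h3, LinearMap.comp_assoc]
  abel

end

section

variable {m : ℕ} (P : PDG k Γ m) (h h' : P.Hom1) (q : ℕ)

theorem bd_ss {i : ℕ} (hi : Shift ψ 1 (P.defect h i)) : Bd ψ (fun n => ss P h n i) :=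
  bd_comp (bd_const (h i)) (bd_gs hi)

theorem cau_ss {i : ℕ} (hi : Shift ψ 1 (P.defect h i)) : Cau ψ (fun n => ss P h n i) :=
  cau_comp (cau_const (h i)) (cau_gs hi) (bd_const (h i)) (bd_gs hi)

theorem bd_tt {i : ℕ} (hi : Shift ψ 1 (Rr P h i)) : Bd ψ (fun n => tt P h n i) :=
  bd_comp (bd_gs hi) (bd_const (piS P i ∘ₗ h i))

theorem cau_tt {i : ℕ} (hi : Shift ψ 1 (Rr P h i)) : Cau ψ (fun n => tt P h n i) :=
  cau_comp (cau_gs hi) (cau_const (piS P i ∘ₗ h i)) (bd_gs hi) (bd_const (piS P i ∘ₗ h i))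

theorem bd_XX {i : ℕ} (hi : Shift ψ 1 (P.defect h i)) : Bd ψ (fun n => XX P h n i) :=
  bd_sub (bd_const LinearMap.id) (bd_comp (bd_ss P h hi) (bd_const (P.d i)))

theorem cau_XX {i : ℕ} (hi : Shift ψ 1 (P.defect h i)) : Cau ψ (fun n => XX P h n i) :=
  cau_sub (cau_const LinearMap.id)
    (cau_comp (cau_ss P h hi) (cau_const (P.d i)) (bd_ss P h hi) (bd_const (P.d i)))

theorem bd_YY {i : ℕ} (hi : Shift ψ 1 (Rr P h i)) : Bd ψ (fun n => YY P h n i) :=
  bd_sub (bd_const LinearMap.id) (bd_comp (bd_const (P.d i)) (bd_tt P h hi))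

theorem cau_YY {i : ℕ} (hi : Shift ψ 1 (Rr P h i)) : Cau ψ (fun n => YY P h n i) :=
  cau_sub (cau_const LinearMap.id)
    (cau_comp (cau_const (P.d i)) (cau_tt P h hi) (bd_const (P.d i)) (bd_tt P h hi))

theorem null_ee (RK : StmtRK) (hq : q + 1 ≤ m) (hF : Folner Γ) (hψ : Function.Surjective ψ)
    (h1 : Shift ψ 1 (P.defect h q)) (h2 : Shift ψ 1 (Rr P h' (q + 1))) :
    Null ψ (ee P h h' q) := by
  have bX := bd_XX P h h1
  have bY := bd_YY P h' h2
  have be : Bd ψ (ee P h h' q) := bd_comp bY bX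
  have hed : Null ψ (fun n => ee P h h' q n ∘ₗ P.d (q + 1)) :=
    null_congr (bd_null (bd_const (P.d (q + 1)))
      (null_bd (null_pw h2) (bd_const (piS P (q + 1)))))
      fun n => (ee_d P h h' q hq n).symm
  have hde : Null ψ (fun n => P.d q ∘ₗ ee P h h' q n) :=
    null_congr (null_bd (null_pw h1) (bd_const (P.d q))) fun n => (d_ee P h h' q hq n).symm
  have hee : Null ψ (fun n => ee P h h' q n ∘ₗ ee P h h' q n - ee P h h' q n) :=
    null_congr (null_sub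
      (null_neg (bd_null bY (bd_null (bd_ss P h h1) (null_bd (null_pw h1) (bd_const (P.d q))))))
      (null_bd hed (bd_comp (bd_tt P h' h2) bX))) fun n => (ee_ee P h h' q hq n).symm
  exact RK k Γ ψ (P.r (q + 2)) (P.r (q + 1)) (P.r q) (P.d (q + 1)) (P.d q) hF hψ
    (fun v hv => (P.ex q (by omega) v).1 hv) (ee P h h' q) be
    (cau_comp (cau_YY P h' h2) (cau_XX P h h1) bY bX) hed hde hee

/-- the correction factor in degree `i` -/
noncomputable def Xc (n : ℕ) : ∀ i, Hm k Γ (Fin (P.r i)) (Fin (P.r i))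
  | 0 => LinearMap.id
  | i + 1 => XX P h n i

/-- the full contraction -/
noncomputable def sig (n : ℕ) : P.Hom1 := fun i =>
  if i ≤ q then ss P h n i else if i = q + 1 then tt P h' n i ∘ₗ Xc P h n i else tt P h' n i

theorem sig_le {n i : ℕ} (hi : i ≤ q) : sig P h h' q n i = ss P h n i := if_pos hi

theorem sig_eq {n : ℕ} : sig P h h' q n (q + 1) = tt P h' n (q + 1) ∘ₗ XX P h n q := by
  unfold sig
  rw [if_neg (by omega), if_pos rfl]
  rfl

theorem sig_gt {n i : ℕ} (hi : q + 1 < i) : sig P h h' q n i = tt P h' n i := by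
  unfold sig
  rw [if_neg (by omega), if_neg (by omega)]

theorem sig_d (hq : q + 1 ≤ m) {n i : ℕ} (hi : q + 1 ≤ i) (_him : i ≤ m) :
    sig P h h' q n i ∘ₗ P.d i = tt P h' n i ∘ₗ P.d i := by
  rcases eq_or_lt_of_le hi with rfl | hlt
  · rw [sig_eq, LinearMap.comp_assoc, XX_d P h q hq]
  · rw [sig_gt P h h' q hlt]

theorem null_defect (RK : StmtRK) (hq : q + 1 ≤ m) (hF : Folner Γ) (hψ : Function.Surjective ψ)
    (h1 : ∀ i, i ≤ q → Shift ψ 1 (P.defect h i))
    (h2 : ∀ i, q + 1 ≤ i → i ≤ m → Shift ψ 1 (Rr P h' i)) (i : ℕ) (hi : i ≤ m) :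
    Null ψ (fun n => P.defect (sig P h h' q n) i) := by
  cases i with
  | zero =>
    refine null_congr (null_pw (h1 0 (Nat.zero_le q))) fun n => ?_
    change _ = LinearMap.id - P.d 0 ∘ₗ sig P h h' q n 0
    rw [sig_le P h h' q (Nat.zero_le q), low0, sub_sub_cancel]
  | succ i =>
    have hdef : ∀ n, P.defect (sig P h h' q n) (i + 1) =
      LinearMap.id - sig P h h' q n i ∘ₗ P.d i - P.d (i + 1) ∘ₗ sig P h h' q n (i + 1) :=
      fun n => rfl
    rcases lt_trichotomy i q with hiq | rfl | hiq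
    · refine null_congr (null_pw (h1 (i + 1) hiq)) fun n => ?_
      rw [hdef, sig_le P h h' q (by omega), sig_le P h h' q (by omega)]
      have h3 := low1 P h n i (by omega)
      have h4 : P.d (i + 1) ∘ₗ ss P h n (i + 1) =
        LinearMap.id - pw (P.defect h (i + 1)) n - ss P h n i ∘ₗ P.d i := by
        rw [← h3]
        abel
      rw [h4]
      abel
    · refine null_congr (null_ee P h h' i RK hq hF hψ (h1 i le_rfl) (h2 (i + 1) le_rfl hq))
        fun n => ?_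
      rw [hdef, sig_le P h h' i le_rfl, sig_eq]
      unfold ee
      conv_lhs => lhs; unfold YY
      rw [LinearMap.sub_comp, LinearMap.id_comp, LinearMap.comp_assoc]
      congr 1
    · refine null_congr (null_pw (h2 i (by omega) (by omega))) fun n => ?_
      rw [hdef, sig_d P h h' q hq (by omega) (by omega), sig_gt P h h' q (by omega)]
      have h3 := high1 P h' n i (by omega)
      have h4 : tt P h' n i ∘ₗ P.d i =
        LinearMap.id - pw (Rr P h' i) n - P.d (i + 1) ∘ₗ tt P h' n (i + 1) := by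
        rw [← h3]
        abel
      rw [h4]
      abel

theorem null_top (hq : q + 1 ≤ m) (h2 : Shift ψ 1 (Rr P h' m)) :
    Null ψ (fun n => P.topDefect (sig P h h' q n)) := by
  refine null_congr (bd_null (bd_const P.π) (null_bd (null_pw h2) (bd_const P.π))) fun n => ?_
  unfold PDG.topDefect
  rw [sig_d P h h' q hq hq le_rfl, high_top, LinearMap.comp_sub, pipi, sub_sub_cancel]

end

/-- M7: low and high contractions give a full one. -/
theorem asm (RK : StmtRK) : StmtASM := by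
  intro k Γ _ _ m P ψ j hj hjm hF hψ hL hH C
  obtain ⟨q, rfl⟩ : ∃ q, j = q + 1 := ⟨j - 1, by omega⟩
  obtain ⟨h, hh⟩ := hL 1
  obtain ⟨h', hh', ht⟩ := hH 1
  have h1 : ∀ i, i ≤ q → Shift ψ 1 (P.defect h i) := fun i hi => hh i (by omega)
  have h2 : ∀ i, q + 1 ≤ i → i ≤ m → Shift ψ 1 (Rr P h' i) := by
    intro i hi him
    rcases eq_or_lt_of_le him with rfl | hlt
    · rw [Rr_top]
      exact ht
    · rw [Rr_lt P h' hlt]
      exact hh' (i + 1) (by omega) hlt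
  have key : ∀ᶠ n in atTop, ∀ i ∈ Finset.range (m + 1),
      Shift ψ C (P.defect (sig P h h' q n) i) := by
    rw [Filter.eventually_all_finset]
    intro i hi
    exact null_iff.1 (null_defect P h h' q RK hjm hF hψ h1 h2 i
      (by have := Finset.mem_range.1 hi; omega)) C
  have key2 := null_iff.1 (null_top P h h' q hjm (h2 m hjm le_rfl)) C
  obtain ⟨n, hn, hn2⟩ := (key.and key2).exists
  exact ⟨sig P h h' q n, fun i hi => hn i (Finset.mem_range.2 (by omega)), hn2⟩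

end Vale.Agent.P260.H417
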