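import Vale.Agent.P260.H493.Spec

/-!
# P260 climb, module ASM: calculus of sequences of maps modulo sequences of high degree
-/

namespace Vale.Agent.P260.H417

open Vale.Agent.P260.H493 Filter

variable {k Γ : Type} [Field k] [Group Γ] {ψ : Γ →* Multiplicative ℤ} {ι κ ν : Type}

/-- linear maps between free modules -/
abbrev Hm (k Γ : Type) [Field k] [Group Γ] (ι κ : Type) : Type :=
  (ι → MonoidAlgebra k Γ) →ₗ[MonoidAlgebra k Γ] (κ → MonoidAlgebra k Γ)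

theorem ge_mono {c c' : ℤ} {v : ι → MonoidAlgebra k Γ} (h : Ge ψ c v) (hc : c' ≤ c) :
    Ge ψ c' v := fun i g hg => hc.trans (h i g hg)

theorem ge_zero (c : ℤ) : Ge ψ c (0 : ι → MonoidAlgebra k Γ) := by
  intro i g hg
  simp at hg

theorem ge_add {c : ℤ} {v w : ι → MonoidAlgebra k Γ} (hv : Ge ψ c v) (hw : Ge ψ c w) :
    Ge ψ c (v + w) := by
  intro i g hg
  by_cases h : (v i).coeff g = 0
  · refine hw i g fun h' => hg ?_
    simp [h, h']
  · exact hv i g h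

theorem ge_neg {c : ℤ} {v : ι → MonoidAlgebra k Γ} (hv : Ge ψ c v) : Ge ψ c (-v) := by
  intro i g hg
  refine hv i g fun h' => hg ?_
  simp [h']

theorem ge_sub {c : ℤ} {v w : ι → MonoidAlgebra k Γ} (hv : Ge ψ c v) (hw : Ge ψ c w) :
    Ge ψ c (v - w) := by
  rw [sub_eq_add_neg]
  exact ge_add hv (ge_neg hw)

theorem sh_mono {C C' : ℤ} {T : Hm k Γ ι κ} (h : Shift ψ C T) (hc : C' ≤ C) : Shift ψ C' T :=
  fun c v hv => ge_mono (h c v hv) (by omega)

theorem sh_zero (C : ℤ) : Shift ψ C (0 : Hm k Γ ι κ) := fun c v _ => by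
  rw [LinearMap.zero_apply]
  exact ge_zero _

theorem sh_id : Shift ψ 0 (LinearMap.id : Hm k Γ ι ι) := fun c v hv => by
  rw [add_zero]
  exact hv

theorem sh_add {C : ℤ} {S T : Hm k Γ ι κ} (hS : Shift ψ C S) (hT : Shift ψ C T) :
    Shift ψ C (S + T) := fun c v hv => ge_add (hS c v hv) (hT c v hv)

theorem sh_neg {C : ℤ} {T : Hm k Γ ι κ} (hT : Shift ψ C T) :
    Shift ψ C (-T) := fun c v hv => ge_neg (hT c v hv)

theorem sh_sub {C : ℤ} {S T : Hm k Γ ι κ} (hS : Shift ψ C S) (hT : Shift ψ C T) :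
    Shift ψ C (S - T) := fun c v hv => ge_sub (hS c v hv) (hT c v hv)

theorem sh_comp {C C' : ℤ} {S : Hm k Γ κ ν} {T : Hm k Γ ι κ} (hS : Shift ψ C S)
    (hT : Shift ψ C' T) : Shift ψ (C + C') (S ∘ₗ T) := fun c v hv => by
  have h := hS _ _ (hT c v hv)
  rw [LinearMap.comp_apply]
  exact ge_mono h (by omega)

theorem sh_sum {α : Type} {C : ℤ} (s : Finset α) (T : α → Hm k Γ ι κ)
    (h : ∀ a ∈ s, Shift ψ C (T a)) : Shift ψ C (∑ a ∈ s, T a) := by
  classical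
  induction s using Finset.induction_on with
  | empty => rw [Finset.sum_empty]; exact sh_zero C
  | insert a s ha ih =>
    rw [Finset.sum_insert ha]
    exact sh_add (h a (Finset.mem_insert_self a s))
      (ih fun b hb => h b (Finset.mem_insert_of_mem hb))

theorem sh_pow {r : Hm k Γ ι ι} (h : Shift ψ 1 r) (n : ℕ) :
    Shift ψ (n : ℤ) ((r : Module.End (MonoidAlgebra k Γ) (ι → MonoidAlgebra k Γ)) ^ n) := by
  induction n with
  | zero =>
    rw [pow_zero]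
    exact sh_id
  | succ n ih =>
    rw [pow_succ]
    have h1 := sh_comp ih h
    push_cast
    exact h1

/-! ### sequences -/

theorem null_iff {T : ℕ → Hm k Γ ι κ} : Null ψ T ↔ ∀ C : ℤ, ∀ᶠ n in atTop, Shift ψ C (T n) := by
  unfold Null
  refine forall_congr' fun C => ?_
  rw [eventually_atTop]

theorem null_zero : Null ψ (fun _ => (0 : Hm k Γ ι κ)) := fun C => ⟨0, fun _ _ => sh_zero C⟩

theorem null_add {S T : ℕ → Hm k Γ ι κ} (hS : Null ψ S) (hT : Null ψ T) :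
    Null ψ (fun n => S n + T n) := fun C => by
  obtain ⟨N, hN⟩ := hS C
  obtain ⟨M, hM⟩ := hT C
  exact ⟨max N M, fun n hn => sh_add (hN n (le_trans (le_max_left _ _) hn))
    (hM n (le_trans (le_max_right _ _) hn))⟩

theorem null_neg {T : ℕ → Hm k Γ ι κ} (hT : Null ψ T) :
    Null ψ (fun n => -T n) := fun C => by
  obtain ⟨M, hM⟩ := hT C
  exact ⟨M, fun n hn => sh_neg (hM n hn)⟩

theorem null_sub {S T : ℕ → Hm k Γ ι κ} (hS : Null ψ S) (hT : Null ψ T) :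
    Null ψ (fun n => S n - T n) := fun C => by
  obtain ⟨N, hN⟩ := hS C
  obtain ⟨M, hM⟩ := hT C
  exact ⟨max N M, fun n hn => sh_sub (hN n (le_trans (le_max_left _ _) hn))
    (hM n (le_trans (le_max_right _ _) hn))⟩

theorem null_congr {S T : ℕ → Hm k Γ ι κ} (hS : Null ψ S) (h : ∀ n, S n = T n) : Null ψ T := by
  rwa [show T = S from (funext h).symm]

theorem null_bd {S : ℕ → Hm k Γ κ ν} {T : ℕ → Hm k Γ ι κ} (hS : Null ψ S) (hT : Bd ψ T) :
    Null ψ (fun n => S n ∘ₗ T n) := fun C => by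
  obtain ⟨C', hC'⟩ := hT
  obtain ⟨N, hN⟩ := hS (C - C')
  refine ⟨N, fun n hn => ?_⟩
  have h := sh_comp (hN n hn) (hC' n)
  exact sh_mono h (by omega)

theorem bd_null {S : ℕ → Hm k Γ κ ν} {T : ℕ → Hm k Γ ι κ} (hS : Bd ψ S) (hT : Null ψ T) :
    Null ψ (fun n => S n ∘ₗ T n) := fun C => by
  obtain ⟨C', hC'⟩ := hS
  obtain ⟨N, hN⟩ := hT (C - C')
  refine ⟨N, fun n hn => ?_⟩
  have h := sh_comp (hC' n) (hN n hn)
  exact sh_mono h (by omega)

theorem bd_add {S T : ℕ → Hm k Γ ι κ} (hS : Bd ψ S) (hT : Bd ψ T) :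
    Bd ψ (fun n => S n + T n) := by
  obtain ⟨C, hC⟩ := hS
  obtain ⟨D, hD⟩ := hT
  exact ⟨min C D, fun n => sh_add (sh_mono (hC n) (min_le_left _ _))
    (sh_mono (hD n) (min_le_right _ _))⟩

theorem bd_sub {S T : ℕ → Hm k Γ ι κ} (hS : Bd ψ S) (hT : Bd ψ T) :
    Bd ψ (fun n => S n - T n) := by
  obtain ⟨C, hC⟩ := hS
  obtain ⟨D, hD⟩ := hT
  exact ⟨min C D, fun n => sh_sub (sh_mono (hC n) (min_le_left _ _))
    (sh_mono (hD n) (min_le_right _ _))⟩

theorem bd_comp {S : ℕ → Hm k Γ κ ν} {T : ℕ → Hm k Γ ι κ} (hS : Bd ψ S) (hT : Bd ψ T) :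
    Bd ψ (fun n => S n ∘ₗ T n) := by
  obtain ⟨C, hC⟩ := hS
  obtain ⟨D, hD⟩ := hT
  exact ⟨C + D, fun n => sh_comp (hC n) (hD n)⟩

theorem cau_of_null {T : ℕ → Hm k Γ ι κ} (hT : Null ψ T) : Cau ψ T := fun C => by
  obtain ⟨N, hN⟩ := hT C
  exact ⟨N, fun n hn n' hn' => sh_sub (hN n hn) (hN n' hn')⟩

theorem cau_const (T : Hm k Γ ι κ) : Cau ψ (fun _ => T) := fun C =>
  ⟨0, fun n _ n' _ => by
    have h : (fun _ => T : ℕ → Hm k Γ ι κ) n - (fun _ => T : ℕ → Hm k Γ ι κ) n' = 0 := sub_self T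
    rw [h]
    exact sh_zero C⟩

theorem cau_add {S T : ℕ → Hm k Γ ι κ} (hS : Cau ψ S) (hT : Cau ψ T) :
    Cau ψ (fun n => S n + T n) := fun C => by
  obtain ⟨N, hN⟩ := hS C
  obtain ⟨M, hM⟩ := hT C
  refine ⟨max N M, fun n hn n' hn' => ?_⟩
  have h1 := hN n (le_trans (le_max_left _ _) hn) n' (le_trans (le_max_left _ _) hn')
  have h2 := hM n (le_trans (le_max_right _ _) hn) n' (le_trans (le_max_right _ _) hn')
  have h3 := sh_add h1 h2
  have h4 : S n - S n' + (T n - T n') = (S n + T n) - (S n' + T n') := by abel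
  rwa [h4] at h3

theorem cau_sub {S T : ℕ → Hm k Γ ι κ} (hS : Cau ψ S) (hT : Cau ψ T) :
    Cau ψ (fun n => S n - T n) := fun C => by
  obtain ⟨N, hN⟩ := hS C
  obtain ⟨M, hM⟩ := hT C
  refine ⟨max N M, fun n hn n' hn' => ?_⟩
  have h1 := hN n (le_trans (le_max_left _ _) hn) n' (le_trans (le_max_left _ _) hn')
  have h2 := hM n (le_trans (le_max_right _ _) hn) n' (le_trans (le_max_right _ _) hn')
  have h3 := sh_sub h1 h2
  have h4 : S n - S n' - (T n - T n') = (S n - T n) - (S n' - T n') := by abel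
  rwa [h4] at h3

theorem cau_comp {S : ℕ → Hm k Γ κ ν} {T : ℕ → Hm k Γ ι κ} (hS : Cau ψ S) (hT : Cau ψ T)
    (bS : Bd ψ S) (bT : Bd ψ T) : Cau ψ (fun n => S n ∘ₗ T n) := fun C => by
  obtain ⟨c, hc⟩ := bS
  obtain ⟨d, hd⟩ := bT
  obtain ⟨N, hN⟩ := hS (C - d)
  obtain ⟨M, hM⟩ := hT (C - c)
  refine ⟨max N M, fun n hn n' hn' => ?_⟩
  have h1 := hN n (le_trans (le_max_left _ _) hn) n' (le_trans (le_max_left _ _) hn')
  have h2 := hM n (le_trans (le_max_right _ _) hn) n' (le_trans (le_max_right _ _) hn')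
  have h3 := sh_mono (sh_comp h1 (hd n)) (show C ≤ C - d + d by omega)
  have h4 := sh_mono (sh_comp (hc n') h2) (show C ≤ c + (C - c) by omega)
  have h5 := sh_add h3 h4
  have h6 : (S n - S n') ∘ₗ T n + S n' ∘ₗ (T n - T n') = S n ∘ₗ T n - S n' ∘ₗ T n' := by
    rw [LinearMap.sub_comp, LinearMap.comp_sub]
    abel
  rwa [h6] at h5

/-! ### geometric sums -/

/-- `1 + r + ... + r ^ (n-1)` -/
noncomputable def gs (r : Hm k Γ ι ι) (n : ℕ) : Hm k Γ ι ι :=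
  ∑ l ∈ Finset.range n, (r : Module.End (MonoidAlgebra k Γ) (ι → MonoidAlgebra k Γ)) ^ l

/-- `r ^ n` -/
noncomputable def pw (r : Hm k Γ ι ι) (n : ℕ) : Hm k Γ ι ι :=
  (r : Module.End (MonoidAlgebra k Γ) (ι → MonoidAlgebra k Γ)) ^ n

theorem pw_succ (r : Hm k Γ ι ι) (n : ℕ) : pw r (n + 1) = pw r n ∘ₗ r := pow_succ _ _

theorem pw_zero (r : Hm k Γ ι ι) : pw r 0 = LinearMap.id := pow_zero _

theorem gs_succ (r : Hm k Γ ι ι) (n : ℕ) : gs r (n + 1) = gs r n + pw r n := by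
  unfold gs
  rw [Finset.sum_range_succ]
  rfl

theorem gs_zero (r : Hm k Γ ι ι) : gs r 0 = 0 := by
  unfold gs
  rw [Finset.range_zero, Finset.sum_empty]

theorem gs_mul (r : Hm k Γ ι ι) (n : ℕ) : gs r n ∘ₗ (LinearMap.id - r) = LinearMap.id - pw r n :=
  geom_sum_mul_neg (r : Module.End (MonoidAlgebra k Γ) (ι → MonoidAlgebra k Γ)) n

theorem mul_gs (r : Hm k Γ ι ι) (n : ℕ) : (LinearMap.id - r) ∘ₗ gs r n = LinearMap.id - pw r n :=
  mul_neg_geom_sum (r : Module.End (MonoidAlgebra k Γ) (ι → MonoidAlgebra k Γ)) n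

theorem null_pw {r : Hm k Γ ι ι} (h : Shift ψ 1 r) : Null ψ (pw r) := fun C =>
  ⟨C.toNat, fun n hn => sh_mono (sh_pow h n) (by omega)⟩

theorem bd_gs {r : Hm k Γ ι ι} (h : Shift ψ 1 r) : Bd ψ (gs r) :=
  ⟨0, fun n => sh_sum _ _ fun l _ => sh_mono (sh_pow h l) (by omega)⟩

theorem cau_gs {r : Hm k Γ ι ι} (h : Shift ψ 1 r) : Cau ψ (gs r) := fun C => by
  have key : ∀ n n' : ℕ, C ≤ (n : ℤ) → n ≤ n' → Shift ψ C (gs r n' - gs r n) := by
    intro n n' hn hnn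
    induction n', hnn using Nat.le_induction with
    | base => rw [sub_self]; exact sh_zero C
    | succ m hm ih =>
      rw [gs_succ, add_sub_right_comm]
      exact sh_add ih (sh_mono (sh_pow h m) (by omega))
  refine ⟨C.toNat, fun n hn n' hn' => ?_⟩
  rcases le_total n n' with hle | hle
  · have h1 := sh_neg (key n n' (by omega) hle)
    rwa [neg_sub] at h1
  · exact key n' n (by omega) hle

theorem pw_intertwine {r : Hm k Γ ι ι} {r' : Hm k Γ κ κ} {f : Hm k Γ ι κ}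
    (h : r' ∘ₗ f = f ∘ₗ r) (n : ℕ) : pw r' n ∘ₗ f = f ∘ₗ pw r n := by
  induction n with
  | zero => rw [pw_zero, pw_zero, LinearMap.id_comp, LinearMap.comp_id]
  | succ n ih =>
    rw [pw_succ, pw_succ, LinearMap.comp_assoc, h, ← LinearMap.comp_assoc, ih,
      LinearMap.comp_assoc]

theorem gs_intertwine {r : Hm k Γ ι ι} {r' : Hm k Γ κ κ} {f : Hm k Γ ι κ}
    (h : r' ∘ₗ f = f ∘ₗ r) (n : ℕ) : gs r' n ∘ₗ f = f ∘ₗ gs r n := by
  induction n with
  | zero => rw [gs_zero, gs_zero, LinearMap.zero_comp, LinearMap.comp_zero]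
  | succ n ih =>
    rw [gs_succ, gs_succ, LinearMap.add_comp, LinearMap.comp_add, ih, pw_intertwine h]

end Vale.Agent.P260.H417
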